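import Vale.Agent.P221.H72.Statement2
import Vale.Agent.P251.S.TensorShift

/-!
# P221, row CV: localization maps the thick subcategory of `B` into the one of the localization
-/

open CategoryTheory MonoidalCategory Limits Pretriangulated

namespace Vale.Agent.P221

open Vale.Agent.P251.St Vale.Agent.P251.St.SHCat Vale.Agent.P257.St
open Vale.Agent.P251.H (exists_cone)

variable {T : SHCat}

namespace H205

theorem acyclic_shift {E A : T.C} (h : Acyclic E A) (m : ℤ) : Acyclic E (A⟦m⟧) := by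
  have h1 : IsZero (E ⊗ A) := (IsZero.iff_id_eq_zero _).2 h
  have h2 : IsZero ((E ⊗ A)⟦m⟧) := (shiftFunctor T.C m).map_isZero h1
  have h3 : IsZero (E ⊗ (A⟦m⟧)) := h2.of_iso (((tensorLeft E).commShiftIso m).app A)
  exact (IsZero.iff_id_eq_zero _).1 h3

/-- `Y` is `E`-local -/
def Loc (E Y : T.C) : Prop := ∀ A : T.C, Acyclic E A → ∀ g : A ⟶ Y, g = 0

theorem Loc.shift {E Y : T.C} (h : Loc E Y) (m : ℤ) : Loc E (Y⟦m⟧) := by
  intro A hA f
  have h3 := h (A⟦-m⟧) (acyclic_shift hA _) (f⟦-m⟧' ≫ (shiftShiftNeg Y m).hom)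
  have h4 : f⟦-m⟧' = 0 := by
    rw [← cancel_mono (shiftShiftNeg Y m).hom, h3, zero_comp]
  exact (shiftFunctor T.C (-m)).map_injective (by rw [h4, Functor.map_zero])

theorem Loc.cof {E X Y Z : T.C} {f : X ⟶ Y} {g : Y ⟶ Z} {h : Z ⟶ X⟦(1 : ℤ)⟧}
    (D : Vale.Agent.P251.H.Dist f g h) (hX : Loc E X) (hY : Loc E Y) : Loc E Z := by
  intro A hA t
  obtain ⟨s, hs⟩ := D.lift₃ t (hX.shift 1 A hA _)
  rw [← hs, hY A hA s, zero_comp]

theorem acyclic_of_iso {E X Y Z : T.C} {f : X ⟶ Y} {g : Y ⟶ Z} {h : Z ⟶ X⟦(1 : ℤ)⟧}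
    (D : Vale.Agent.P251.H.Dist f g h) (hf : IsIso (E ◁ f)) : Acyclic E Z := by
  have D' := (tensorLeft E).map_distinguished _ D
  have h1 : IsIso ((tensorLeft E).mapTriangle.obj (Triangle.mk f g h)).mor₁ := hf
  have h2 := (Triangle.isZero₃_iff_isIso₁ _ D').2 h1
  exact (IsZero.iff_id_eq_zero _).1 h2

theorem extend {E X Z W : T.C} {z : X ⟶ Z} (hz : IsIso (E ◁ z)) (hW : Loc E W) (a : X ⟶ W) :
    ∃ b : Z ⟶ W, z ≫ b = a := by
  obtain ⟨C, g, h, D⟩ := exists_cone z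
  have hC := acyclic_of_iso D hz
  have h0 : h ≫ a⟦(1 : ℤ)⟧' = 0 := hW.shift 1 C hC _
  obtain ⟨b, hb⟩ := D.desc₁ _ h0
  obtain ⟨b', rfl⟩ := (shiftFunctor T.C (1 : ℤ)).map_surjective b
  refine ⟨b', (shiftFunctor T.C (1 : ℤ)).map_injective ?_⟩
  rw [Functor.map_comp, hb]

theorem extend_unique {E X Z W : T.C} {z : X ⟶ Z} (hz : IsIso (E ◁ z)) (hW : Loc E W)
    {a b : Z ⟶ W} (hab : z ≫ a = z ≫ b) : a = b := by
  obtain ⟨C, g, h, D⟩ := exists_cone z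
  have h1 : z ≫ (a - b) = 0 := by rw [Preadditive.comp_sub, hab, sub_self]
  obtain ⟨c, hc⟩ := D.desc₂ _ h1
  have h2 : c = 0 := hW C (acyclic_of_iso D hz) c
  rw [h2, comp_zero] at hc
  exact sub_eq_zero.1 hc.symm

/-- `X` has an `E`-localization in the thick subcategory generated by `ZB` -/
def HasL (E ZB X : T.C) : Prop :=
  ∃ (Z : T.C) (z : X ⟶ Z), IsIso (E ◁ z) ∧ Loc E Z ∧ Thick (fun Y => Y = ZB) Z

theorem HasL.zero {E ZB X : T.C} (h : IsZero X) : HasL E ZB X :=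
  ⟨X, 𝟙 X, by rw [MonoidalCategory.whiskerLeft_id]; infer_instance,
    fun _ _ g => h.eq_of_tgt _ _, Thick.zero h⟩

theorem HasL.shift {E ZB X : T.C} (h : HasL E ZB X) (k : ℤ) : HasL E ZB (X⟦k⟧) := by
  obtain ⟨Z, z, hz, hZ, hT⟩ := h
  refine ⟨Z⟦k⟧, z⟦k⟧', ?_, hZ.shift k, hT.shift k⟩
  have h1 : IsIso (((tensorLeft E) ⋙ shiftFunctor T.C k).map z) := by
    have : IsIso ((tensorLeft E).map z) := hz
    rw [Functor.comp_map]
    infer_instance
  exact (NatIso.isIso_map_iff ((tensorLeft E).commShiftIso k) z).2 h1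

theorem HasL.cof {E ZB X Y C : T.C} {f : X ⟶ Y} {g : Y ⟶ C} {h : C ⟶ X⟦(1 : ℤ)⟧}
    (D : Vale.Agent.P251.H.Dist f g h) (hX : HasL E ZB X) (hY : HasL E ZB Y) :
    HasL E ZB C := by
  obtain ⟨ZX, x, hx, hZX, hTX⟩ := hX
  obtain ⟨ZY, y, hy, hZY, hTY⟩ := hY
  obtain ⟨F, hF⟩ := extend hx hZY (f ≫ y)
  obtain ⟨ZC, G, H, D'⟩ := exists_cone F
  obtain ⟨c, hc1, hc2⟩ := D.map₃ D' x y hF.symm
  refine ⟨ZC, c, ?_, hZX.cof D' hZY, Thick.cof D' hTX hTY⟩
  let φ : Triangle.mk f g h ⟶ Triangle.mk F G H :=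
    { hom₁ := x
      hom₂ := y
      hom₃ := c
      comm₁ := hF.symm
      comm₂ := hc1
      comm₃ := hc2 }
  exact isIso₃_of_isIso₁₂ ((tensorLeft E).mapTriangle.map φ)
    ((tensorLeft E).map_distinguished _ D) ((tensorLeft E).map_distinguished _ D') hx hy

theorem ret_of_thick {E B ZB X : T.C} {b : Hom B ZB} (hb : IsIso (E ◁ b)) (hZB : Loc E ZB)
    (hX : Thick (fun Y => Y = B) X) :
    ∃ (Y : T.C) (i : X ⟶ Y) (r : Y ⟶ X), i ≫ r = 𝟙 X ∧ HasL E ZB Y := by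
  induction hX with
  | base h =>
    subst h
    exact ⟨_, 𝟙 _, 𝟙 _, Category.comp_id _, ZB, b, hb, hZB, Thick.base rfl⟩
  | zero h => exact ⟨_, 𝟙 _, 𝟙 _, Category.comp_id _, HasL.zero h⟩
  | shift k _ ih =>
    obtain ⟨Y, i, r, hir, hY⟩ := ih
    exact ⟨Y⟦k⟧, i⟦k⟧', r⟦k⟧', by rw [← Functor.map_comp, hir, CategoryTheory.Functor.map_id], hY.shift k⟩
  | @cof X Y Z f g h D _ _ ihX ihY =>
    have D : Vale.Agent.P251.H.Dist f g h := D
    obtain ⟨X', i, r, hir, hX'⟩ := ihX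
    obtain ⟨Y', i', r', hir', hY'⟩ := ihY
    obtain ⟨C', g', h', D'⟩ := exists_cone (r ≫ f ≫ i')
    obtain ⟨c₁, h1, h2⟩ := D.map₃ D' i i' (by
      rw [← Category.assoc i r, hir, Category.id_comp])
    obtain ⟨c₂, h3, h4⟩ := D'.map₃ D r r' (by
      rw [Category.assoc, Category.assoc, hir', Category.comp_id])
    have hiso : IsIso (c₁ ≫ c₂) := by
      refine D.iso₃ D (c₁ ≫ c₂) ?_ ?_
      · rw [← Category.assoc, h1, Category.assoc, h3, ← Category.assoc, hir', Category.id_comp]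
      · rw [Category.assoc, ← h4, ← Category.assoc, ← h2, Category.assoc, ← Functor.map_comp,
          hir, CategoryTheory.Functor.map_id, Category.comp_id]
    exact ⟨C', c₁, c₂ ≫ inv (c₁ ≫ c₂), by rw [← Category.assoc, IsIso.hom_inv_id],
      HasL.cof D' hX' hY'⟩
  | retract i r hir _ ih =>
    obtain ⟨Y', i', r', hir', hY'⟩ := ih
    exact ⟨Y', i ≫ i', r' ≫ r, by
      rw [Category.assoc, ← Category.assoc i', hir', Category.id_comp, hir], hY'⟩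

end H205

open H205

/-- ROW CV -/
theorem thick_of_loc {E B ZB X Z : T.C} {b : Hom B ZB} {z : Hom X Z} (hb : IsLoc E b)
    (hz : IsLoc E z) (hX : Thick (fun Y => Y = B) X) : Thick (fun Y => Y = ZB) Z := by
  have hb1 : IsIso (E ◁ b) := by
    rw [← id_tensorHom]
    exact hb.1
  have hz1 : IsIso (E ◁ z) := by
    rw [← id_tensorHom]
    exact hz.1
  obtain ⟨Y, i, r, hir, Z', z', hz', hZ', hT⟩ := ret_of_thick hb1 hb.2 hX
  obtain ⟨s, hs⟩ := extend hz1 hZ' (i ≫ z')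
  obtain ⟨t, ht⟩ := extend hz' (W := Z) hz.2 (r ≫ z)
  refine Thick.retract s t ?_ hT
  refine extend_unique hz1 hz.2 ?_
  rw [← Category.assoc, hs, Category.assoc, ht, ← Category.assoc, hir, Category.id_comp,
    Category.comp_id]

end Vale.Agent.P221
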